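import Vale.Agent.Lib.P095.Inner

namespace Vale.Agent.Results.P095.InnerActions

/-- Let `A`, `D`, `T` be unital C*-algebras, where `T` is generated, as a closed linear span of
products, by commuting unital `*`-homomorphic images of `A` and `D` (for instance
`T = A ⊗ D`, with `D` in the role of the Jiang-Su algebra), and suppose `A ≅ T`.
Let `α` be an action of a group `G` on `A` by inner automorphisms `α g = Ad (u g)`, where the
unitaries `u g` multiply up to scalars, and let `γ` be an action on `T` with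
`γ g (a ⊗ d) = α g a ⊗ d`.  Then `α` is cocycle conjugate to `γ`: there are a
`*`-isomorphism `Φ : A ≃ T` and a `γ`-cocycle `w` of unitaries of `T` with
`Φ (α g a) = w g * γ g (Φ a) * (w g)⋆`. -/
theorem result (G : Type*) [Group G] (A D T : Type*)
    [CStarAlgebra A] [CStarAlgebra D] [CStarAlgebra T]
    (ιA : A →⋆ₐ[ℂ] T) (ιD : D →⋆ₐ[ℂ] T)
    (hcomm : ∀ a d, ιA a * ιD d = ιD d * ιA a)
    (hdense : (Submodule.span ℂ
      (Set.range fun p : A × D => ιA p.1 * ιD p.2)).topologicalClosure = ⊤)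
    (hstable : Nonempty (A ≃⋆ₐ[ℂ] T))
    (α : G →* (A ≃⋆ₐ[ℂ] A)) (γ : G →* (T ≃⋆ₐ[ℂ] T))
    (hγ : ∀ g a d, γ g (ιA a * ιD d) = ιA (α g a) * ιD d)
    (u : G → unitary A)
    (hu : ∀ g h, ∃ c : ℂ, (u g : A) * (u h : A) = c • (u (g * h) : A))
    (hα : ∀ g a, α g a = (u g : A) * a * star (u g : A)) :
    ∃ (Φ : A ≃⋆ₐ[ℂ] T) (w : G → unitary T),
      (∀ g h, (w (g * h) : T) = (w g : T) * γ g (w h : T)) ∧
      ∀ g a, Φ (α g a) = (w g : T) * γ g (Φ a) * star (w g : T) := by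
  obtain ⟨Φ⟩ := hstable
  obtain ⟨w, hw1, hw2⟩ := Vale.Agent.Lib.P095.inner_cocycle_conj ιA ιD hcomm hdense Φ
    (fun g => α g) (fun g => γ g) hγ u hu hα
  exact ⟨Φ, w, hw1, hw2⟩

end Vale.Agent.Results.P095.InnerActions
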