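import Vale.Agent.Lib.P095.Inner

namespace Vale.Agent.Results.P095.PointwiseInner

/-- Let `A`, `D`, `T` be unital C*-algebras, where `A` has trivial centre (for instance `A`
simple and unital), `T` is generated, as a closed linear span of products, by commuting unital
`*`-homomorphic images of `A` and `D` (for instance `T = A ⊗ D`, with `D` in the role of the
Jiang-Su algebra), and suppose `A ≅ T`.  Let `α` be an action of a group `G` on `A` such that
every single automorphism `α g` is inner (no compatibility between the implementing unitaries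
is assumed), and let `γ` be an action on `T` with `γ g (a ⊗ d) = α g a ⊗ d`.  Then `α` is
cocycle conjugate to `γ`: there are a `*`-isomorphism `Φ : A ≃ T` and a `γ`-cocycle `w` of
unitaries of `T` with `Φ (α g a) = w g * γ g (Φ a) * (w g)⋆`. -/
theorem result (G : Type*) [Group G] (A D T : Type*)
    [CStarAlgebra A] [CStarAlgebra D] [CStarAlgebra T]
    (hcentre : ∀ z : A, (∀ a : A, z * a = a * z) → ∃ c : ℂ, z = c • (1 : A))
    (ιA : A →⋆ₐ[ℂ] T) (ιD : D →⋆ₐ[ℂ] T)
    (hcomm : ∀ a d, ιA a * ιD d = ιD d * ιA a)
    (hdense : (Submodule.span ℂ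
      (Set.range fun p : A × D => ιA p.1 * ιD p.2)).topologicalClosure = ⊤)
    (hstable : Nonempty (A ≃⋆ₐ[ℂ] T))
    (α : G →* (A ≃⋆ₐ[ℂ] A)) (γ : G →* (T ≃⋆ₐ[ℂ] T))
    (hγ : ∀ g a d, γ g (ιA a * ιD d) = ιA (α g a) * ιD d)
    (hinner : ∀ g, ∃ v : unitary A, ∀ a, α g a = (v : A) * a * star (v : A)) :
    ∃ (Φ : A ≃⋆ₐ[ℂ] T) (w : G → unitary T),
      (∀ g h, (w (g * h) : T) = (w g : T) * γ g (w h : T)) ∧
      ∀ g a, Φ (α g a) = (w g : T) * γ g (Φ a) * star (w g : T) := by
  choose u hα using hinner
  have hu : ∀ g h, ∃ c : ℂ, (u g : A) * (u h : A) = c • (u (g * h) : A) := by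
    intro g h
    have hss : ∀ k : G, star (u k : A) * (u k : A) = 1 := fun k =>
      Unitary.star_mul_self_of_mem (u k).2
    have hs : ∀ k : G, (u k : A) * star (u k : A) = 1 := fun k =>
      Unitary.mul_star_self_of_mem (u k).2
    -- the element `z = (u (g h))⋆ (u g) (u h)` is central
    have hz : ∀ a : A, (star (u (g * h) : A) * ((u g : A) * (u h : A))) * a =
        a * (star (u (g * h) : A) * ((u g : A) * (u h : A))) := by
      intro a
      have h1 : α (g * h) a = α g (α h a) := by rw [map_mul]; rfl
      rw [hα (g * h), hα g, hα h] at h1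
      -- h1 : u(gh) a u(gh)⋆ = u g (u h a (u h)⋆) (u g)⋆
      have h2 : star (u (g * h) : A) * ((u g : A) * ((u h : A) * a * star (u h : A)) *
          star (u g : A)) * ((u g : A) * (u h : A)) =
          star (u (g * h) : A) * ((u g : A) * (u h : A)) * a := by
        calc star (u (g * h) : A) * ((u g : A) * ((u h : A) * a * star (u h : A)) *
              star (u g : A)) * ((u g : A) * (u h : A))
            = star (u (g * h) : A) * ((u g : A) * ((u h : A) * a * (star (u h : A) *
                ((star (u g : A) * (u g : A)) * (u h : A))))) := by noncomm_ring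
          _ = star (u (g * h) : A) * ((u g : A) * (u h : A)) * a := by
              rw [hss g, one_mul, hss h]; noncomm_ring
      have h3 : star (u (g * h) : A) * ((u (g * h) : A) * a * star (u (g * h) : A)) *
          ((u g : A) * (u h : A)) = a * (star (u (g * h) : A) * ((u g : A) * (u h : A))) := by
        calc star (u (g * h) : A) * ((u (g * h) : A) * a * star (u (g * h) : A)) *
              ((u g : A) * (u h : A))
            = (star (u (g * h) : A) * (u (g * h) : A)) * a * (star (u (g * h) : A) *
                ((u g : A) * (u h : A))) := by noncomm_ring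
          _ = a * (star (u (g * h) : A) * ((u g : A) * (u h : A))) := by
              rw [hss (g * h), one_mul]
      rw [← h2, ← h1, h3]
    obtain ⟨c, hc⟩ := hcentre _ hz
    refine ⟨c, ?_⟩
    calc (u g : A) * (u h : A)
        = ((u (g * h) : A) * star (u (g * h) : A)) * ((u g : A) * (u h : A)) := by
          rw [hs (g * h), one_mul]
      _ = (u (g * h) : A) * (star (u (g * h) : A) * ((u g : A) * (u h : A))) := by
          rw [mul_assoc]
      _ = c • (u (g * h) : A) := by rw [hc, mul_smul_comm, mul_one]
  obtain ⟨Φ⟩ := hstable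
  obtain ⟨w, hw1, hw2⟩ := Vale.Agent.Lib.P095.inner_cocycle_conj ιA ιD hcomm hdense Φ
    (fun g => α g) (fun g => γ g) hγ u hu hα
  exact ⟨Φ, w, hw1, hw2⟩

end Vale.Agent.Results.P095.PointwiseInner
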